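import Vale.Agent.P011.D4I.H657.Conj
import Vale.Agent.P011.D4I.H657.LineE
import Vale.Agent.P011.D4I.H68.Nf
import Vale.Agent.P011.D4T.H657.Line

/-!
Transitivity along the standard line.
-/

open NumberField
open Vale.Agent.P011.MPQ Vale.Agent.P011.D4 Vale.Agent.P011.D4.Oct Vale.Agent.P011.D4.H24
open Vale.Agent.P011.E6 Vale.Agent.P011.D4T

set_option linter.unusedSectionVars false

namespace Vale.Agent.P011.D4I

section pos

variable {k L E : Type} [Field k] [Field L] [Field E] [Algebra k L] [Algebra k E] [Algebra L E]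
  [IsScalarTower k L E] {ρ σ ι : E ≃ₐ[k] E} {α : E}
  {a b c : kˣ} {q : Lˣ} (H : HyI ρ σ ι α a b c q)

include H

/-- The reduced norm of `Q₁` is positive at the real places where `a` is negative. -/
theorem nrd_pos {w : L →+* ℝ} (hw : w (algebraMap k L a) < 0) {x : Qt (up L a) (q * up L b)}
    (hx : x ≠ 0) : 0 < w (nrd x) := by
  obtain ⟨hb, -, hq⟩ := H.hreL w hw
  have e1 : ((up L a : Lˣ) : L) = algebraMap k L (a : k) := rfl
  have e2 : ((q * up L b : Lˣ) : L) = (q : L) * algebraMap k L (b : k) := rfl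
  have hqb : w (q : L) * w (algebraMap k L (b : k)) < 0 := mul_neg_of_pos_of_neg hq hb
  have h1 : w (nrd x) = w x.re ^ 2 + (-w (algebraMap k L a)) * w x.imI ^ 2 +
      (-(w (q : L) * w (algebraMap k L (b : k)))) * w x.imJ ^ 2 +
      (w (algebraMap k L a) * (w (q : L) * w (algebraMap k L (b : k)))) * w x.imK ^ 2 := by
    simp only [nrd, e1, e2, map_add, map_sub, map_mul, map_pow]
    ring
  have hp : 0 < w (algebraMap k L a) * (w (q : L) * w (algebraMap k L (b : k))) :=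
    mul_pos_of_neg_of_neg hw hqb
  have g1 : 0 ≤ w x.re ^ 2 := sq_nonneg _
  have g2 : 0 ≤ (-w (algebraMap k L a)) * w x.imI ^ 2 :=
    mul_nonneg (by linarith) (sq_nonneg _)
  have g3 : 0 ≤ (-(w (q : L) * w (algebraMap k L (b : k)))) * w x.imJ ^ 2 :=
    mul_nonneg (by linarith) (sq_nonneg _)
  have g4 : 0 ≤ (w (algebraMap k L a) * (w (q : L) * w (algebraMap k L (b : k)))) *
      w x.imK ^ 2 := mul_nonneg hp.le (sq_nonneg _)
  rcases lt_or_eq_of_le (add_nonneg (add_nonneg (add_nonneg g1 g2) g3) g4) with h | h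
  · rw [h1]; exact h
  · exfalso
    apply hx
    have f1 : w x.re ^ 2 = 0 := by linarith
    have f2 : (-w (algebraMap k L a)) * w x.imI ^ 2 = 0 := by linarith
    have f3 : (-(w (q : L) * w (algebraMap k L (b : k)))) * w x.imJ ^ 2 = 0 := by linarith
    have f4 : (w (algebraMap k L a) * (w (q : L) * w (algebraMap k L (b : k)))) *
      w x.imK ^ 2 = 0 := by linarith
    have r1 : x.re = 0 := (map_eq_zero w).1 (pow_eq_zero_iff two_ne_zero |>.1 f1)
    have r2 : x.imI = 0 := (map_eq_zero w).1 (pow_eq_zero_iff two_ne_zero |>.1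
      ((mul_eq_zero.1 f2).resolve_left (by linarith)))
    have r3 : x.imJ = 0 := (map_eq_zero w).1 (pow_eq_zero_iff two_ne_zero |>.1
      ((mul_eq_zero.1 f3).resolve_left (by linarith)))
    have r4 : x.imK = 0 := (map_eq_zero w).1 (pow_eq_zero_iff two_ne_zero |>.1
      ((mul_eq_zero.1 f4).resolve_left hp.ne'))
    ext
    · exact r1
    · exact r2
    · exact r3
    · exact r4

/-- The norm to `k` of the reduced norm is positive. -/
theorem nrd_posN {w : L →+* ℝ} (hw : w (algebraMap k L a) < 0) {x : Qt (up L a) (q * up L b)}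
    (hx : x ≠ 0) {p : k} (hp : algebraMap k E p = algebraMap L E (nrd x) *
      ρ (algebraMap L E (nrd x)) * ρ (ρ (algebraMap L E (nrd x)))) :
    0 < w (algebraMap k L p) := by
  have := H.finiteL
  have halg : Algebra.IsAlgebraic L E := Algebra.IsAlgebraic.of_finite L E
  obtain ⟨W, hW⟩ := H68.exists_lift (E := E) w
  have h2 : NeZero (2 : E) := ⟨fun h => by
    have h3 := congrArg W h
    rw [map_ofNat, map_zero] at h3
    exact two_ne_zero h3⟩
  set n := algebraMap L E (nrd x) with hn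
  have hι := H.ιL (nrd x)
  have hσ := H.σL (nrd x)
  rw [← hn] at hι hσ
  have hWk : W (algebraMap k E p) = ((w (algebraMap k L p) : ℝ) : ℂ) := by
    rw [IsScalarTower.algebraMap_apply k L E, hW]
  have h0 := nrd_pos H hw hx
  have hn0 : n ≠ 0 := by
    rw [hn, Ne, map_eq_zero]
    intro h
    rw [h, map_zero] at h0
    exact lt_irrefl _ h0
  rcases H.conj_or hw hW with hc | hc
  · -- three real places
    have key : ∀ V : E →+* ℂ, (∀ y, V (σ y) = (starRingEnd ℂ) (V y)) →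
        (∀ t : k, V (algebraMap k E t) = ((w (algebraMap k L t) : ℝ) : ℂ)) →
        ∃ r : ℝ, 0 < r ∧ V n = (r : ℂ) := by
      intro V hV hVk
      have hR : ComplexEmbedding.IsReal (V.comp (algebraMap L E)) := by
        rw [ComplexEmbedding.isReal_iff]
        ext t
        rw [ComplexEmbedding.conjugate_coe_eq, RingHom.comp_apply, ← hV, H.σL]
      have hL : ∀ t : L, ((hR.embedding t : ℝ) : ℂ) = V (algebraMap L E t) := fun t =>
        hR.coe_embedding_apply t
      refine ⟨hR.embedding (nrd x), nrd_pos H ?_ hx, (hL _).symm⟩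
      have h3 := hL (algebraMap k L a)
      rw [← IsScalarTower.algebraMap_apply, hVk] at h3
      rw [Complex.ofReal_injective h3]
      exact hw
    have hWk' : ∀ t : k, W (algebraMap k E t) = ((w (algebraMap k L t) : ℝ) : ℂ) := fun t => by
      rw [IsScalarTower.algebraMap_apply k L E, hW]
    obtain ⟨r0, p0, e0⟩ := key W hc hWk'
    obtain ⟨r1, p1, e1⟩ := key (W.comp (ρ : E →+* E)) (fun y => by
      change W (ρ (σ y)) = (starRingEnd ℂ) (W (ρ y))
      rw [← hc, H.comm]) (fun t => by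
      change W (ρ (algebraMap k E t)) = _
      rw [AlgEquiv.commutes, hWk'])
    obtain ⟨r2, p2, e2⟩ := key ((W.comp (ρ : E →+* E)).comp (ρ : E →+* E)) (fun y => by
      change W (ρ (ρ (σ y))) = (starRingEnd ℂ) (W (ρ (ρ y)))
      rw [← hc, H.comm, H.comm]) (fun t => by
      change W (ρ (ρ (algebraMap k E t))) = _
      rw [AlgEquiv.commutes, AlgEquiv.commutes, hWk'])
    change W (ρ n) = _ at e1
    change W (ρ (ρ n)) = _ at e2
    have e : ((w (algebraMap k L p) : ℝ) : ℂ) = ((r0 * r1 * r2 : ℝ) : ℂ) := by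
      rw [← hWk, hp, map_mul, map_mul, e0, e1, e2, Complex.ofReal_mul, Complex.ofReal_mul]
    rw [Complex.ofReal_injective e]
    positivity
  · -- one real place
    have e1 : (starRingEnd ℂ) (W (ρ n)) = W (ρ (ρ n)) := by
      rw [← hc, H.ιρ, hι, H.ρ3, H.comm, H.comm, hσ]
    have hn1 : W (ρ n) ≠ 0 := by
      rw [Ne, map_eq_zero, map_eq_zero]
      exact hn0
    have e : ((w (algebraMap k L p) : ℝ) : ℂ) =
        ((w (nrd x) * Complex.normSq (W (ρ n)) : ℝ) : ℂ) := by
      rw [← hWk, hp, map_mul, map_mul, ← e1, mul_assoc, Complex.mul_conj, Complex.ofReal_mul, hn,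
        hW]
    rw [Complex.ofReal_injective e]
    exact mul_pos h0 (Complex.normSq_pos.2 hn1)

/-- There is a real place of `L` where `a` is negative. -/
theorem exists_w [NumberField k] : ∃ w : L →+* ℝ, w (algebraMap k L a) < 0 := by
  obtain ⟨τ, ha, hb, hc⟩ := exists_dfn H.hdiv
  obtain ⟨w, hw⟩ := E6I.exists_real_over (L := L) H.h3 τ
  refine ⟨w, ?_⟩
  have : w (algebraMap k L a) = τ a := by rw [← hw]; rfl
  rw [this]
  exact ha

theorem nrd_ne [NumberField k] {x : Qt (up L a) (q * up L b)} (hx : x ≠ 0) : nrd x ≠ 0 := by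
  obtain ⟨w, hw⟩ := exists_w H
  intro h0
  have := nrd_pos H hw hx
  rw [h0, map_zero] at this
  exact lt_irrefl _ this

/-- The norm to `k` of the reduced norm of an element of `Q₁`. -/
theorem exists_x0 [NumberField k] {x : Qt (up L a) (q * up L b)} (hx : x ≠ 0) :
    ∃ (x0 : Qt a b) (s : kˣ), nrd x0 = s ∧
      algebraMap k E (s : k) = algebraMap L E (nrd x) * ρ (algebraMap L E (nrd x)) *
        ρ (ρ (algebraMap L E (nrd x))) := by
  have hν := nrd_ne H hx
  have hι := H.ιL (nrd x)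
  have hσ := H.σL (nrd x)
  set n := algebraMap L E (nrd x) with hn
  have hn0 : n ≠ 0 := by rw [hn, Ne, map_eq_zero]; exact hν
  have hn1 : ρ n ≠ 0 := fun h0 => hn0 ((map_eq_zero_iff ρ ρ.injective).1 h0)
  have hn2 : ρ (ρ n) ≠ 0 := fun h0 => hn1 ((map_eq_zero_iff ρ ρ.injective).1 h0)
  have h1 : ι (ρ n) = ρ n := by rw [H.ιρ, hι, H.ρ3]
  have h2 : ι (ρ (ρ n)) = n := by rw [← hι, H.ι2]
  obtain ⟨p, hp⟩ := H.fixk (n * ρ n * ρ (ρ n)) (by
    rw [map_mul, map_mul, H.ρ3]
    ring) (by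
    rw [map_mul, map_mul, H.comm, H.comm, H.comm, hσ]) (by
    rw [map_mul, map_mul, hι, h1, h2]
    ring)
  have hp0 : p ≠ 0 := by
    rintro rfl
    rw [map_zero] at hp
    exact mul_ne_zero (mul_ne_zero hn0 hn1) hn2 hp.symm
  obtain ⟨x0, hx0⟩ := exists_nrd (a := a) (b := b) (Units.mk0 p hp0) fun φ ha _ => by
    obtain ⟨w, rfl⟩ := E6I.exists_real_over (L := L) H.h3 φ
    exact nrd_posN H ha hx hp
  exact ⟨x0, Units.mk0 p hp0, hx0, hp⟩

end pos

section line

variable {k L E : Type} [Field k] [NumberField k] [Field L] [Field E] [Algebra k L] [Algebra k E]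
  [Algebra L E] [IsScalarTower k L E] [NeZero (2 : E)] {ρ σ ι : E ≃ₐ[k] E} {α : E}
  {a b c : kˣ} {q : Lˣ} (H : HyI ρ σ ι α a b c q)

include H

/-- The case of coordinates which are fixed by `ι`. -/
theorem exists_line_fix (s t : E) (h : s ≠ 0 ∨ t ≠ 0) (hs : ι s = s) (ht : ι t = t) :
    ∃ z ∈ stab0I ρ σ ι α a b c q, ∃ r : E, r ≠ 0 ∧
      z.1 (ep α) = r • tri ρ (s • (ep α * gl) + t • ((1 - ep α) * (gj * gl)) : OctL E a b c)
        (Jm ρ σ α q (s • (ep α * gl) + t • ((1 - ep α) * (gj * gl)))) := by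
  have hj := H.hj
  set q0 := algebraMap L E (q : L) with hq0
  have hq : q0 ≠ 0 := hj.q_ne
  have hι2s : ∀ y : E, ι y = y → ι (ρ (ρ y)) = ρ (ρ (ρ (ρ y))) := by
    intro y hy
    rw [H.ιρ, H.ιρ, hy]
  obtain ⟨x, hx⟩ := mk4_memI H (s := σ (ρ (ρ s))) (s' := ρ (ρ s)) (T := -ρ (ρ t))
    (T' := -(q0⁻¹ * σ (ρ (ρ t)))) (by rw [H.σ2]) (by
      rw [← hq0, map_neg, map_mul, map_inv₀, H.σ2, hj.s0]
      field_simp) (by
      rw [← H.σι, hι2s s hs, H.comm, H.comm]) (by
      rw [map_neg, map_mul, map_inv₀, H.ιL, ← hq0, ← H.σι, hι2s t ht, map_neg, map_neg, map_mul,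
        map_mul, map_inv₀, map_inv₀, H.comm, H.comm])
  have hx0 : x ≠ 0 := by
    rintro rfl
    have h0 : (psiL α q (0 : Qt (up L a) (q * up L b)) : Qt (up E a) (up E b)) =
        mk4 (up E a) (up E b) α 0 0 0 0 := by
      rw [H.psiL_eq]
      simp
    rw [h0] at hx
    obtain ⟨e1, e2, e3, e4⟩ := mk4_inj H.α2 hx
    rcases h with h | h
    · apply h
      apply ρ.injective
      apply ρ.injective
      rw [← e2, map_zero, map_zero]
    · apply h
      apply ρ.injective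
      apply ρ.injective
      rw [map_zero, map_zero]
      exact neg_eq_zero.1 e3.symm
  obtain ⟨x0, n, hn1, hn2⟩ := exists_x0 H hx0
  obtain ⟨z, hz1, -, hz3⟩ := exists_z (c := c) H x0 x n (by
    rw [hn1, ← hn2, ← map_mul, sq])
  refine ⟨z, hz1, (((up E c : Eˣ) : E) * (q0 * ρ (ρ q0)))⁻¹,
    inv_ne_zero (mul_ne_zero (up E c).ne_zero (mul_ne_zero hq hj.q2_ne)), ?_⟩
  have h1 := line_calc (c := c) hj (qup E x0)
    (algebraMap L E (nrd x) * ρ (ρ (algebraMap L E (nrd x))) / algebraMap k E (n : k)) s t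
  rw [lineX, ← hx] at h1
  rw [hz3]
  exact h1

/-- D1b': transitivity along the standard line. -/
theorem exists_line (s t : E) (h : s ≠ 0 ∨ t ≠ 0)
    (hI : ∃ μ : E, Im ι (s • (ep α * gl) + t • ((1 - ep α) * (gj * gl)) : OctL E a b c) =
      μ • (s • (ep α * gl) + t • ((1 - ep α) * (gj * gl)))) :
    ∃ z ∈ stab0I ρ σ ι α a b c q, ∃ r : E, r ≠ 0 ∧
      z.1 (ep α) = r • tri ρ (s • (ep α * gl) + t • ((1 - ep α) * (gj * gl)) : OctL E a b c)
        (Jm ρ σ α q (s • (ep α * gl) + t • ((1 - ep α) * (gj * gl)))) := by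
  obtain ⟨μ, hμ⟩ := hI
  rw [line_vecI H.α2] at hμ
  have h1 : -ι s = μ * s ∧ -ι t = μ * t := by
    have h2 := congrArg (fun y : OctL E a b c => y.snd) hμ
    change qmap ι (-mk4 (up E a) (up E b) α s 0 t 0) =
      μ • mk4 (up E a) (up E b) α s 0 t 0 at h2
    rw [qmap_neg, qmap_mk4 H.ια, smul_mk4, neg_eq_iff_eq_neg] at h2
    have h3 : -(mk4 (up E a) (up E b) α (μ * s) (μ * 0) (μ * t) (μ * 0)) =
        mk4 (up E a) (up E b) α (-(μ * s)) (-(μ * 0)) (-(μ * t)) (-(μ * 0)) := by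
      have h4 := smul_mk4 (a := up E a) (b := up E b) (α := α) (-1) (μ * s) (μ * 0) (μ * t)
        (μ * 0)
      rw [neg_one_smul] at h4
      rw [h4]
      simp only [neg_one_mul]
    rw [h3] at h2
    obtain ⟨e1, -, e3, -⟩ := mk4_inj H.α2 h2
    exact ⟨by rw [e1, neg_neg], by rw [e3, neg_neg]⟩
  obtain ⟨h1, h2⟩ := h1
  -- the scalar
  obtain ⟨d, hd, hds, hdt⟩ : ∃ d : E, d ≠ 0 ∧ ι (d * s) = d * s ∧ ι (d * t) = d * t := by
    rcases h with h | h
    · refine ⟨s⁻¹, inv_ne_zero h, by rw [inv_mul_cancel₀ h, map_one], ?_⟩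
      have hs : ι s ≠ 0 := fun h0 => h ((map_eq_zero_iff ι ι.injective).1 h0)
      rw [map_mul, map_inv₀]
      field_simp
      linear_combination t * h1 - s * h2
    · refine ⟨t⁻¹, inv_ne_zero h, ?_, by rw [inv_mul_cancel₀ h, map_one]⟩
      have ht : ι t ≠ 0 := fun h0 => h ((map_eq_zero_iff ι ι.injective).1 h0)
      rw [map_mul, map_inv₀]
      field_simp
      linear_combination s * h2 - t * h1
  obtain ⟨z, hz, r, hr, hzr⟩ := exists_line_fix H (c := c) (d * s) (d * t)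
    (h.imp (mul_ne_zero hd) (mul_ne_zero hd)) hds hdt
  have e1 : ((d * s) • (ep α * gl) + (d * t) • ((1 - ep α) * (gj * gl)) : OctL E a b c) =
      d • (s • (ep α * gl) + t • ((1 - ep α) * (gj * gl))) := by
    rw [smul_add, smul_smul, smul_smul]
  rw [e1, H.Jm_smul, tri_smul_left, tri_smul_right, smul_smul, smul_smul] at hzr
  refine ⟨z, hz, _, ?_, hzr⟩
  have hd1 : ρ d ≠ 0 := fun h0 => hd ((map_eq_zero_iff ρ ρ.injective).1 h0)
  have hd2 : ρ (ρ (σ d)) ≠ 0 := fun h0 => hd ((map_eq_zero_iff σ σ.injective).1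
    ((map_eq_zero_iff ρ ρ.injective).1 ((map_eq_zero_iff ρ ρ.injective).1 h0)))
  exact mul_ne_zero (mul_ne_zero hr hd1) hd2

end line

end Vale.Agent.P011.D4I
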